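import Vale.Agent.P233.H236.Main

open MeasureTheory

universe u

namespace Vale.Agent.Results.P233.CurvatureMeasure

open Vale.Agent.P233.T

/-- Let `(M,d,m)` be a complete separable metric measure space with full support that is
`RCD(K,N)`. (1) (A) implies (B): if `(M,d)` is an Alexandrov space with curvature `≥ κ`, then
`(M,d,m)` has distributional sectional curvature `≥ κ`; for `n`-dimensional spaces the hypothesis
`RCD(K,N)` is known for the Hausdorff measure `m = ℋⁿ`, with `K = (n - 1) κ` and `N = n`.
(2) If `M` is proper (all `n`-dimensional complete Alexandrov spaces are), then `(M,d,m)` has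
distributional sectional curvature `≥ κ` if and only if Gigli's curvature tensor `R(X,Y,Z,W)` is,
for all test vector fields, a (unique) finite signed Borel measure, and
`R(X,Y,Y,X) ≥ κ (|X|²|Y|² - ⟨X,Y⟩²) m` as measures. -/
theorem result {M : Type u} [MetricSpace M] [CompleteSpace M] [SecondCountableTopology M]
    [MeasurableSpace M] [BorelSpace M] (m : Measure M) [m.IsOpenPosMeasure] (κ K N : ℝ)
    (hN : 0 < N) (h : IsRCD m K N) :
    (IsAlexandrov M κ → DistSecGE (sob m) κ) ∧
    (ProperSpace M → (DistSecGE (sob m) κ ↔ MeasSecGE m κ)) :=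
  ⟨fun hA => Vale.Agent.P233.ab_T m hN hA h, fun _ => Vale.Agent.P233.H236.main hN h⟩

end Vale.Agent.Results.P233.CurvatureMeasure
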