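import Vale.Agent.P233.H154.Main

open MeasureTheory

universe u

namespace Vale.Agent.Results.P233.LocalCurvature

open Vale.Agent.P233.T

/-- Let `(M,d,m)` be a complete separable metric measure space with full support that is
`RCD(K,N)`. (1) (A) implies (B): if `(M,d)` is an Alexandrov space with curvature `≥ κ`, then
`(M,d,m)` has distributional sectional curvature `≥ κ`; for `n`-dimensional spaces the hypothesis
`RCD(K,N)` is known for the Hausdorff measure `m = ℋⁿ`, with `K = (n - 1) κ` and `N = n`.
(2) If `(M,d)` is geodesic (which is known for `RCD(K,N)` spaces; `(M,d)` need not be an Alexandrov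
space), then (A) implies (B) locally: triangle comparison with curvature `κ` in a ball around `z`
implies distributional sectional curvature `≥ κ` near `z`; and distributional sectional curvature
bounds, with a constant or variable bound, are a local property. -/
theorem result {M : Type u} [MetricSpace M] [CompleteSpace M] [SecondCountableTopology M]
    [MeasurableSpace M] [BorelSpace M] (m : Measure M) [m.IsOpenPosMeasure] (K N : ℝ)
    (hN : 0 < N) (h : IsRCD m K N) :
    (∀ κ : ℝ, IsAlexandrov M κ → DistSecGE (sob m) κ) ∧ (IsGeodesic M → LocalSec m) :=
  ⟨fun _ hA => Vale.Agent.P233.ab_T m hN hA h, fun hg => Vale.Agent.P233.H154.localSec hN h hg⟩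

end Vale.Agent.Results.P233.LocalCurvature
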